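import Vale.Agent.P144Z.R3.Coef
import Vale.Agent.P144Z.E5.Per

/-!
# The local terms: norms
-/

namespace Vale.Agent.P144Z

open Finset Matrix

namespace R3

section lat

variable {M : ℕ} [NeZero M]

theorem tdist_star {x y : Tor M} (h : y ∈ star x) : tdist y x ≤ 1 := by
  simp only [star, mem_insert, mem_singleton] at h
  rcases h with rfl | rfl | rfl | rfl | rfl
  · rw [tdist_self]; omega
  · exact tdist_uv _ _
  · exact E3.tdist_sub_uv _ _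
  · exact tdist_uv _ _
  · exact E3.tdist_sub_uv _ _

/-- The row of the operator. -/
noncomputable def row (A : Gauge M) (x : Tor M) (a : Fin 4) : Tor M × Fin 4 → ℝ :=
  ∑ b, sA a b • e1 x b + tc •
    ((if a = 0 then A (x, 0) • e1 (x + uv M 0) 2 else 0)
      + (if a = 1 then A (x, 1) • e1 (x + uv M 1) 3 else 0)
      - ((if a = 2 then A (x - uv M 0, 0) • e1 (x - uv M 0) 0 else 0)
      + (if a = 3 then A (x - uv M 1, 1) • e1 (x - uv M 1) 1 else 0)))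

theorem row_dot (A : Gauge M) (x : Tor M) (a : Fin 4) (u : Tor M × Fin 4 → ℝ) :
    row A x a ⬝ᵥ u = (Dm A *ᵥ u) (x, a) := by
  rw [E3.Dm_apply, row]
  simp only [Fin.sum_univ_four, add_dotProduct, sub_dotProduct, smul_dotProduct, smul_eq_mul,
    single_one_dotProduct, apply_ite (· ⬝ᵥ u), zero_dotProduct]

omit [NeZero M] in
theorem row_out (A : Gauge M) (x : Tor M) (a : Fin 4) :
    ∀ s, s.1 ∉ star x → row A x a s = 0 := fun s hs => by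
  simp only [row, Fin.sum_univ_four, Pi.add_apply, Pi.sub_apply, Pi.smul_apply,
    apply_ite (fun f : Tor M × Fin 4 → ℝ => f s), Pi.zero_apply,
    e1_out (self_mem_star x) _ s hs, e1_out (add_mem_star x _) _ s hs,
    e1_out (sub_mem_star x _) _ s hs, smul_zero, ite_self, add_zero, sub_zero]

theorem dom_of {A : Gauge M} {ℓ : ℕ} (hℓ : 1 ≤ ℓ) {x : Tor M} {δ : Tor M × Fin 4 → ℝ} {C : ℝ}
    (hC : 0 ≤ C) (n : ℕ) (h : ∀ u, (δ ⬝ᵥ u) ^ 2 * ℓ ^ (n + 1) ≤ C * hsq A ℓ (ball x ℓ) u) :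
    Dom A ℓ x δ √(C / ℓ ^ n) := fun u => by
  have h0 : (0 : ℝ) < ℓ := by exact_mod_cast hℓ
  rw [Real.sq_sqrt (by positivity), div_mul_eq_mul_div, le_div_iff₀ (by positivity), mul_assoc,
    ← pow_succ']
  exact (h u).trans (mul_le_mul_of_nonneg_left
    (RN.hsq_mono A h0.le le_rfl (E3.ball_mono x (by omega)) u) hC)

theorem fld_sq (x : Tor M) (a : Fin 2) (u : Tor M × Fin 4 → ℝ) :
    (fld x a ⬝ᵥ u) ^ 2 ≤ ∑ c, u (x, c) ^ 2 := by
  rw [E3.fld_dot]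
  refine (sum_mul_sq_le_sq_mul_sq _ _ _).trans (le_of_eq ?_)
  have h := kv_dot a a
  rw [if_pos rfl] at h
  rw [show ∑ c, kv a c ^ 2 = 1 by simpa only [dotProduct, sq] using h, one_mul]

theorem hsq_zm (ℓ : ℕ) (B : Finset (Tor M)) (a : Fin 2) : hsq (1 : Gauge M) ℓ B (zm M a) ≤ 1 := by
  have h : ∀ k, l2sq B ((Dm (1 : Gauge M) ^ (k + 1)) *ᵥ zm M a) = 0 := fun k => by
    rw [pow_succ, ← mulVec_mulVec, E5.zm_ker, mulVec_zero]
    simp [l2sq]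
  rw [hsq, sum_range_succ']
  simp only [h, mul_zero, sum_const_zero, zero_add, pow_zero, one_mul, one_mulVec]
  refine (E3.l2sq_mono (subset_univ _) _).trans (le_of_eq ?_)
  rw [RN.l2sq_univ, E5.zm_orth, if_pos rfl]

end lat

variable {g : Geo} {ℓ : ℕ} {h β : ℝ} {X : Finset g.P}

/-- A smearing function in `X` with dual bound `c`. -/
def Gd (g : Geo) (ℓ : ℕ) (X : Finset g.P) (δ : Tor g.M × Fin 4 → ℝ) (c : ℝ) : Prop :=
  (∀ s, s.1 ∉ X → δ s = 0) ∧ 0 ≤ c ∧ ∃ z ∈ X, SuppIn δ z ℓ ∧ Dom g.A ℓ z δ c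

theorem gd_e1 {y : g.P} (hy : y ∈ X) (a : Fin 4) : Gd g ℓ X (e1 y a) √ℓ :=
  ⟨e1_out hy a, Real.sqrt_nonneg _, y, hy, RN.supp_single (y, a) ℓ, RN.dom_single g.A ℓ (y, a)⟩

theorem gd_star (hℓ : 1 ≤ ℓ) {x : g.P} {δ : Tor g.M × Fin 4 → ℝ} {c : ℝ}
    (h : ∀ s, s.1 ∉ star x → δ s = 0) (hc : 0 ≤ c) (hd : Dom g.A ℓ x δ c) :
    Gd g ℓ (star x) δ c :=
  ⟨h, hc, x, self_mem_star x, fun s hs => h s fun h1 => by have := tdist_star h1; omega, hd⟩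

theorem O2_eq (x : g.P) : g.O2 x = (1 / 2 : ℝ) • ∑ a, bp g (e1 x a) (row g.A x a) := by
  simp only [Geo.O2, Geo.O1, site_eq, edge_eq, row, Fin.sum_univ_four, Fin.sum_univ_two,
    sub_add_cancel]
  simp [sA, bp_swap (e1 x 1) (e1 x 0), bp_swap (e1 x 2) (e1 x 0), bp_swap (e1 x 3) (e1 x 0),
    bp_swap (e1 x 2) (e1 x 1), bp_swap (e1 x 3) (e1 x 1), bp_swap (e1 x 3) (e1 x 2),
    bp_swap (e1 x 2) (e1 (x - uv g.M 0) 0), bp_swap (e1 x 3) (e1 (x - uv g.M 1) 1)]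
  module

section pn

variable (hℓ : 1 ≤ ℓ) (hh : 0 < h) (hβ : 0 < β)
include hℓ hh hβ

theorem pn_bp {a b : Tor g.M × Fin 4 → ℝ} {c c' : ℝ} (ha : Gd g ℓ X a c) (hb : Gd g ℓ X b c') :
    g.pn ℓ h β X (bp g a b) ≤ h ^ 2 * (c * c') := by
  obtain ⟨a1, a2, z, hz, a3, a4⟩ := ha
  obtain ⟨b1, b2, z', hz', b3, b4⟩ := hb
  have adm := RN.adm (g := g) hℓ hh hβ X
  have h1 := nrm_psi adm (δ := g.ex a) (c := h * c) (Or.inl ⟨z, hz, a, c, a3, a2, a4, rfl⟩)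
    (ex_out a1)
  have h2 := nrm_psi adm (δ := g.ex b) (c := h * c') (Or.inl ⟨z', hz', b, c', b3, b2, b4, rfl⟩)
    (ex_out b1)
  rw [Geo.pn, val_bp]
  refine (nrm_mul adm _ _).trans ((mul_le_mul h1 h2 (nrm_nonneg _) (by positivity)).trans_eq ?_)
  ring

theorem pn_bv {k : g.K} (hk : (g.src k).y ∈ X) : g.pn ℓ h β X (g.bv k) ≤ β := by
  have adm := RN.adm (g := g) hℓ hh hβ X
  have h1 : ∀ i, nrm (g.cons ℓ h β X) (g.gens X) (psi (R1.sv g k i)) ≤ √β := fun i =>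
    nrm_psi adm (Or.inr ⟨k, i, hk, rfl⟩) fun s hs =>
      Pi.single_eq_of_ne (fun e => hs (by rw [e]; exact hk)) _
  rw [Geo.pn, R1.val_bv]
  exact (nrm_mul adm _ _).trans ((mul_le_mul (h1 0) (h1 1) (nrm_nonneg _)
    (Real.sqrt_nonneg _)).trans_eq (Real.mul_self_sqrt hβ.le))

theorem pn_edge (hA : IsSign g.A) {x : g.P} {i : Fin 2} {c : ℝ} (h1 : ∀ a, Gd g ℓ X (e1 x a) c)
    (h2 : ∀ a, Gd g ℓ X (e1 (x + uv g.M i) a) c) :
    g.pn ℓ h β X (g.edge x i) ≤ h ^ 2 * (c * c) := by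
  rw [edge_eq, RN.pn_smul hℓ hh hβ]
  have h3 : |g.A (x, i)| = 1 := by rcases hA (x, i) with e | e <;> simp [e]
  rw [h3, one_mul]
  exact pn_bp hℓ hh hβ (h1 _) (h2 _)

theorem pn_O1 (hA : IsSign g.A) {x : g.P} {c : ℝ}
    (h1 : ∀ y ∈ star x, ∀ a, Gd g ℓ (star x) (e1 y a) c) :
    g.pn ℓ h β (star x) (g.O1 x) ≤ 2 * (h ^ 2 * (c * c)) := by
  have h2 : ∀ i, g.pn ℓ h β (star x) (g.edge x i + g.edge (x - uv g.M i) i) ≤
      2 * (h ^ 2 * (c * c)) := fun i => by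
    have a1 := pn_edge hℓ hh hβ hA (h1 x (self_mem_star x)) (h1 _ (add_mem_star x i))
    have a2 := pn_edge hℓ hh hβ hA (x := x - uv g.M i) (i := i) (h1 _ (sub_mem_star x i))
      (h1 _ (by rw [sub_add_cancel]; exact self_mem_star x))
    exact (RN.pn_add hℓ hh hβ _ _).trans (by linarith)
  rw [Geo.O1, RN.pn_smul hℓ hh hβ, Fin.sum_univ_two, abs_of_pos (by norm_num)]
  have := RN.pn_add (X := star x) hℓ hh hβ (g.edge x 0 + g.edge (x - uv g.M 0) 0)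
    (g.edge x 1 + g.edge (x - uv g.M 1) 1)
  linarith [h2 0, h2 1]

theorem pn_site {x : g.P} {c : ℝ} (h1 : ∀ a, Gd g ℓ X (e1 x a) c) :
    g.pn ℓ h β X (g.site x) ≤ 16 * (h ^ 2 * (c * c)) := by
  rw [site_eq]
  have h2 : ∀ a b : Fin 4, g.pn ℓ h β X (if a < b then bp g (e1 x a) (e1 x b) else 0) ≤
      h ^ 2 * (c * c) := fun a b => by
    split_ifs
    · exact pn_bp hℓ hh hβ (h1 a) (h1 b)
    · rw [RN.pn_zero hℓ hh hβ]
      exact mul_nonneg (sq_nonneg h) (mul_self_nonneg c)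
  refine (RN.pn_sum hℓ hh hβ _ _).trans ((sum_le_sum fun a _ =>
    (RN.pn_sum hℓ hh hβ _ _).trans (sum_le_sum fun b _ => h2 a b)).trans_eq ?_)
  simp only [sum_const, card_univ, Fintype.card_fin, nsmul_eq_mul]
  push_cast
  ring

theorem pn_O2 {x : g.P} {c c' : ℝ} (h1 : ∀ a, Gd g ℓ X (e1 x a) c)
    (h2 : ∀ a, Gd g ℓ X (row g.A x a) c') :
    g.pn ℓ h β X (g.O2 x) ≤ 2 * (h ^ 2 * (c * c')) := by
  rw [O2_eq, RN.pn_smul hℓ hh hβ, abs_of_pos (by norm_num)]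
  have h3 := (RN.pn_sum (X := X) hℓ hh hβ univ fun a => bp g (e1 x a) (row g.A x a)).trans
    (sum_le_sum fun a _ => pn_bp hℓ hh hβ (h1 a) (h2 a))
  simp only [sum_const, card_univ, Fintype.card_fin, nsmul_eq_mul] at h3
  push_cast at h3
  linarith

omit hβ in
theorem pair_le {u w : Tor g.M × Fin 4 → ℝ} {b b' : ℝ} (hb : 0 < b) (hb' : 0 < b')
    (hu : ∀ z ∈ X, hsq g.A ℓ (ball z (2 * ℓ)) u ≤ b ^ 2 * ℓ)
    (hw : ∀ z ∈ X, hsq g.A ℓ (ball z (2 * ℓ)) w ≤ b' ^ 2 * ℓ) {z : g.P} (hz : z ∈ X)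
    {δ : Tor g.M × Fin 4 → ℝ} {c : ℝ} (hc : 0 ≤ c) (hd : Dom g.A ℓ z δ c) :
    h / (2 * b) * |g.ex δ ⬝ᵥ g.ex u| + h / (2 * b') * |g.ex δ ⬝ᵥ g.ex w| ≤ h * c := by
  have h1 := mul_le_mul_of_nonneg_left (RN.Dom.abs_le hℓ hc hd hb.le (hu z hz))
    (show 0 ≤ h / (2 * b) by positivity)
  have h2 := mul_le_mul_of_nonneg_left (RN.Dom.abs_le hℓ hc hd hb'.le (hw z hz))
    (show 0 ≤ h / (2 * b') by positivity)
  have e1 : h / (2 * b) * (c * b) = h * c / 2 := by field_simp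
  have e2 : h / (2 * b') * (c * b') = h * c / 2 := by field_simp
  rw [RN.ex_dot, RN.ex_dot]
  linarith

theorem beta_le {u w : Tor g.M × Fin 4 → ℝ} {b b' : ℝ} (hb : 0 < b) (hb' : 0 < b')
    (hu : ∀ z ∈ X, hsq g.A ℓ (ball z (2 * ℓ)) u ≤ b ^ 2 * ℓ)
    (hw : ∀ z ∈ X, hsq g.A ℓ (ball z (2 * ℓ)) w ≤ b' ^ 2 * ℓ) {F : g.E} (hF : F ∈ g.sub X) :
    h ^ 2 * |beta (Ev.val F) (g.ex u) (g.ex w)| ≤ 4 * (b * b') * g.pn ℓ h β X F := by
  have h1 := abs_beta_le (RN.adm hℓ hh hβ X) (RN.sub_loc hF) (g := g.ex u) (g' := g.ex w)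
    (a := h / (2 * b)) (a' := h / (2 * b')) (by positivity) (by positivity) fun p hp => by
      rcases RN.cons_cases hp with ⟨z, hz, δ, c, -, hc, hd, rfl⟩ | ⟨k, i, -, rfl⟩
      · exact pair_le hℓ hh hb hb' hu hw hz hc hd
      · simp only [RN.src_dot_ex, abs_zero, mul_zero, add_zero]
        exact Real.sqrt_nonneg _
  have h2 := mul_le_mul_of_nonneg_left h1 (show 0 ≤ 4 * (b * b') by positivity)
  refine le_trans (le_of_eq ?_) h2
  field_simp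
  ring

theorem beta4_le {u w : Tor g.M × Fin 4 → ℝ} {b b' : ℝ} (hb : 0 < b) (hb' : 0 < b')
    (hu : ∀ z ∈ X, hsq g.A ℓ (ball z (2 * ℓ)) u ≤ b ^ 2 * ℓ)
    (hw : ∀ z ∈ X, hsq g.A ℓ (ball z (2 * ℓ)) w ≤ b' ^ 2 * ℓ) {F : g.E} (hF : F ∈ g.sub X)
    (k : g.K) : β * h ^ 2 * |beta (g.db k (Ev.val F)) (g.ex u) (g.ex w)| ≤
      4 * (b * b') * g.pn ℓ h β X F := by
  have h0 := Real.sqrt_pos.2 hβ
  have h1 := abs_beta4_le (RN.adm hℓ hh hβ X) (RN.sub_loc hF)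
    (g := ![R1.sv g k 0, R1.sv g k 1, g.ex u, g.ex w]) (a := ![√β, √β, h / (2 * b), h / (2 * b')])
    (fun i => by fin_cases i <;> simp <;> positivity) fun p hp => by
      simp only [Fin.sum_univ_four, cons_val_zero, cons_val_one, Matrix.cons_val]
      rcases RN.cons_cases hp with ⟨z, hz, δ, c, -, hc, hd, rfl⟩ | ⟨k', i, -, rfl⟩
      · simp only [RN.ex_dot_src, abs_zero, mul_zero, zero_add]
        exact pair_le hℓ hh hb hb' hu hw hz hc hd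
      · simp only [RN.src_dot_ex, abs_zero, mul_zero, add_zero, R1.sv_dot]
        by_cases e : k' = k <;> fin_cases i <;> simp [e]
  simp only [Fin.prod_univ_four, cons_val_zero, cons_val_one, Matrix.cons_val,
    Real.mul_self_sqrt hβ.le] at h1
  have h2 := mul_le_mul_of_nonneg_left h1 (show 0 ≤ 4 * (b * b') by positivity)
  refine le_trans (le_of_eq ?_) h2
  rw [R1.db_apply]
  field_simp
  ring

end pn

/-- The dual bounds of the local fields in a flat region. -/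
theorem loc_est : ∃ C : ℝ, 1 ≤ C ∧ ∀ g : Geo, IsSign g.A → ∀ ℓ : ℕ, 8 ≤ ℓ → 4 * ℓ ≤ g.M →
    ∀ x : g.P, Flat g.A x ℓ → ∃ c c' : ℝ, c * c = C / ℓ ∧ c * c' = C / ℓ ^ 2 ∧
      (∀ y ∈ star x, ∀ a, Gd g ℓ (star x) (e1 y a) c) ∧ (∀ a, Gd g ℓ (star x) (row g.A x a) c') ∧
      (∀ a, Gd g ℓ (star x) (fld x a) c) ∧ ∀ b i, Gd g ℓ (star x) (dfld g.A x b i) c' := by
  obtain ⟨C, hC, H⟩ := point_est
  refine ⟨4 * C, by linarith, fun g hA ℓ h8 hM x hx => ?_⟩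
  have hℓ : 1 ≤ ℓ := by omega
  have h0 : (0 : ℝ) < ℓ := by exact_mod_cast hℓ
  have H' := H g.M g.A hA x ℓ h8 (by omega) hx
  have x0 : tdist x x ≤ 1 := by rw [tdist_self]; omega
  have hC4 : 0 ≤ 4 * C := by linarith
  have up : ∀ u, C * hsq g.A ℓ (ball x ℓ) u ≤ 4 * C * hsq g.A ℓ (ball x ℓ) u := fun u =>
    mul_le_mul_of_nonneg_right (by linarith) (RN.hsq_nonneg _ _ _ _)
  refine ⟨√(4 * C / ℓ ^ 1), √(4 * C / ℓ ^ 3), ?_, ?_, fun y hy a => ?_, fun a => ?_, fun a => ?_,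
    fun b i => ?_⟩
  · rw [Real.mul_self_sqrt (by positivity), pow_one]
  · rw [← Real.sqrt_mul (by positivity), Real.sqrt_eq_iff_mul_self_eq (by positivity)
      (by positivity)]
    field_simp
  · refine gd_star hℓ (e1_out hy a) (Real.sqrt_nonneg _) (dom_of hℓ hC4 1 fun u => ?_)
    rw [single_one_dotProduct]
    exact ((H' y (tdist_star hy) u).1 a).trans (up u)
  · refine gd_star hℓ (row_out g.A x a) (Real.sqrt_nonneg _) (dom_of hℓ hC4 3 fun u => ?_)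
    rw [row_dot]
    exact ((H' x x0 u).2.1 a).trans (up u)
  · refine gd_star hℓ (fld_out (self_mem_star x) a) (Real.sqrt_nonneg _)
      (dom_of hℓ hC4 1 fun u => ?_)
    refine (mul_le_mul_of_nonneg_right (fld_sq x a u) (by positivity)).trans ?_
    have h1 := (H' x x0 u).1
    rw [Fin.sum_univ_four, one_add_one_eq_two]
    linarith [h1 0, h1 1, h1 2, h1 3]
  · exact gd_star hℓ (dfld_out g.A x b i) (Real.sqrt_nonneg _) (dom_of hℓ hC4 3 fun u =>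
      ((H' x x0 u).2.2 b i).trans (up u))

theorem abs_kt_le (a b i : Fin 2) : |Geo.kt a b i| ≤ 1 := by
  unfold Geo.kt
  split_ifs <;> simp

theorem third_le_tc : 1 / 3 ≤ tc := by
  have h : (4 / 3 : ℝ) ≤ √2 := Real.le_sqrt_of_sq_le (by norm_num)
  unfold tc
  linarith

theorem abs_ze_le {x : g.P} {F : g.E} {t : ℝ} (h1 : |g.nu x F| ≤ t)
    (h2 : ∀ a b i, |g.cK x (Ev.val F) a b i| ≤ t) : |g.ze x F| ≤ 27 * t := by
  have h3 : ∀ a b i, |Geo.kt a b i * g.cK x (Ev.val F) a b i| ≤ t := fun a b i => by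
    rw [abs_mul]
    exact (mul_le_of_le_one_left (abs_nonneg _) (abs_kt_le a b i)).trans (h2 a b i)
  have h4 : |(∑ a, ∑ b, ∑ i, Geo.kt a b i * g.cK x (Ev.val F) a b i) - g.nu x F| ≤ 9 * t := by
    simp only [Fin.sum_univ_two]
    rw [abs_le] at h1 ⊢
    have h5 := fun a b i => abs_le.1 (h3 a b i)
    constructor <;> linarith [h5 0 0 0, h5 0 0 1, h5 0 1 0, h5 0 1 1, h5 1 0 0, h5 1 0 1, h5 1 1 0,
      h5 1 1 1]
  have h0 : 0 ≤ t := (abs_nonneg _).trans h1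
  rw [Geo.ze, abs_div, abs_of_pos tc_pos, div_le_iff₀ tc_pos]
  have := mul_le_mul_of_nonneg_left third_le_tc h0
  linarith

theorem abs_co_le {x : g.P} {F : g.E} {t : ℝ} (h1 : |g.nu x F| ≤ t)
    (h2 : ∀ a b i, |g.cK x (Ev.val F) a b i| ≤ t) (a b i : Fin 2) :
    |g.cK x (Ev.val F) a b i - Geo.kt a b i * (g.nu x F + tc * g.ze x F) / 4| ≤ 8 * t := by
  have h3 : |tc * g.ze x F| ≤ 27 * t := by
    rw [abs_mul, abs_of_pos tc_pos]
    exact (mul_le_of_le_one_left (abs_nonneg _) E3.tc_le).trans (abs_ze_le h1 h2)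
  have h4 : |Geo.kt a b i * (g.nu x F + tc * g.ze x F)| ≤ 28 * t := by
    rw [abs_mul]
    refine (mul_le_of_le_one_left (abs_nonneg _) (abs_kt_le a b i)).trans
      ((abs_add_le _ _).trans ?_)
    linarith
  have h5 := abs_le.1 h4
  have h6 := abs_le.1 (h2 a b i)
  rw [abs_le]
  constructor <;> linarith

/-- The extracted coefficients. -/
theorem coef_le : ∃ C : ℝ, 1 ≤ C ∧ ∀ g : Geo, IsSign g.A → ∀ (ℓ : ℕ) (h β : ℝ), 8 ≤ ℓ →
    16 * ℓ ≤ g.M → 0 < h → 0 < β → ∀ (U : Finset g.P) (x : g.P), x ∈ U → stein U ≤ ℓ →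
    Flat g.A x (5 * ℓ) → ∀ F ∈ g.sub U,
      h ^ 2 * |g.nu x F| ≤ C * ℓ * g.pn ℓ h β U F ∧
      (∀ a b i, h ^ 2 * |g.cK x (Ev.val F) a b i| ≤ C * ℓ ^ 2 * g.pn ℓ h β U F) ∧
      ∀ k, β * h ^ 2 * |g.cM x (g.db k (Ev.val F))| ≤ C * ℓ * g.pn ℓ h β U F := by
  obtain ⟨C, hC, H⟩ := test_est
  refine ⟨4 * C, by linarith, fun g hA ℓ h β h8 hM hh hβ U x hx hU hf F hF => ?_⟩
  have hℓ : 1 ≤ ℓ := by omega
  have h0 : (0 : ℝ) < ℓ := by exact_mod_cast hℓ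
  have C0 : 0 < C := by linarith
  have H' := fun z (hz : z ∈ U) => H g.M g.A hA x z ℓ hℓ (by omega)
    (fun f hf' => hf f (by omega)) (by have := tdist_le_stein hz hx; omega)
  have b0 : 0 < √(C * ℓ) := Real.sqrt_pos.2 (by positivity)
  have b1 : 0 < √(C * ℓ ^ 3) := Real.sqrt_pos.2 (by positivity)
  have t0 : ∀ a, ∀ z ∈ U, hsq g.A ℓ (ball z (2 * ℓ)) (tf0 g.A x a) ≤ √(C * ℓ) ^ 2 * ℓ :=
    fun a z hz => ((H' z hz).1 a).trans_eq (by rw [Real.sq_sqrt (by positivity)]; ring)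
  have t1 : ∀ b i, ∀ z ∈ U, hsq g.A ℓ (ball z (2 * ℓ)) (tf1 g.A x b i) ≤ √(C * ℓ ^ 3) ^ 2 * ℓ :=
    fun b i z hz => ((H' z hz).2 b i).trans_eq (by rw [Real.sq_sqrt (by positivity)]; ring)
  have e0 : √(C * ℓ) * √(C * ℓ) = C * ℓ := Real.mul_self_sqrt (by positivity)
  have e1 : √(C * ℓ) * √(C * ℓ ^ 3) = C * ℓ ^ 2 := by
    rw [← Real.sqrt_mul (by positivity), Real.sqrt_eq_iff_mul_self_eq (by positivity)
      (by positivity)]
    ring
  refine ⟨?_, fun a b i => ?_, fun k => ?_⟩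
  · have := beta_le hℓ hh hβ b0 b0 (t0 0) (t0 1) hF
    rw [e0, ← mul_assoc] at this
    rw [Geo.nu, abs_neg]
    exact this
  · have := beta_le hℓ hh hβ b0 b1 (t0 a) (t1 b i) hF
    rw [e1, ← mul_assoc] at this
    exact this
  · have := beta4_le hℓ hh hβ b0 b0 (t0 0) (t0 1) hF k
    rw [e0, ← mul_assoc] at this
    exact this

/-- Halving of the fields. -/
noncomputable def half (g : Geo) : (g.S → ℝ) →ₗ[ℝ] (g.S → ℝ) := (1 / 2 : ℝ) • RN.prF g + RN.prB g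

theorem half_ex (δ : Tor g.M × Fin 4 → ℝ) : half g (g.ex δ) = (1 / 2 : ℝ) • g.ex δ := by
  rw [half, LinearMap.add_apply, LinearMap.smul_apply, RN.prF_ex, RN.prB_ex, add_zero]

theorem half_src (k : g.K × Fin 2) :
    half g (Pi.single (Sum.inr k) 1) = Pi.single (Sum.inr k) 1 := by
  rw [half, LinearMap.add_apply, LinearMap.smul_apply, RN.prF_src, RN.prB_src, smul_zero, zero_add]

theorem prB_half : RN.prB g ∘ₗ half g = RN.prB g := by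
  rw [half, LinearMap.comp_add, LinearMap.comp_smul, R1.prB_prF, smul_zero, zero_add, R1.res_res]

theorem half_loc {F : Gr g.S} (hF : F ∈ loc (g.gens X)) :
    ExteriorAlgebra.map (half g) F ∈ loc (g.gens X) := by
  refine map_loc hF ?_
  rintro (s | s) hs s' hs'
  · rw [← RN.ex_single, half_ex, RN.ex_single, Pi.smul_apply,
      Pi.single_eq_of_ne (fun e => hs' (by rw [e]; exact hs)), smul_zero]
  · rw [half_src]
    exact Pi.single_eq_of_ne (fun e => hs' (by rw [e]; exact hs)) _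

theorem prB_loc {F : Gr g.S} (hF : F ∈ loc (g.gens X)) :
    ExteriorAlgebra.map (RN.prB g) F ∈ loc (g.gens X) := by
  refine map_loc hF ?_
  rintro (s | s) hs s' hs'
  · rw [← RN.ex_single, RN.prB_ex]
    rfl
  · rw [RN.prB_src]
    exact Pi.single_eq_of_ne (fun e => hs' (by rw [e]; exact hs)) _

theorem del_half (u : Tor g.M × Fin 4 → ℝ) (F : Gr g.S) :
    del (g.ex u) (ExteriorAlgebra.map (half g) F) =
      (1 / 2 : ℝ) • ExteriorAlgebra.map (half g) (del (g.ex u) F) := by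
  rw [← map_smul, ← A1.del_smul_left]
  refine del_map _ _ _ (A1.mem_loc_univ F) ?_
  rintro (s | s) -
  · rw [← RN.ex_single, half_ex, smul_dotProduct, RN.ex_dot, single_one_dotProduct]
    rfl
  · rw [half_src, RN.src_dot_ex, Pi.smul_apply]
    exact (smul_zero _).symm

theorem flip_prB : g.flip ∘ₗ RN.prB g = RN.prB g := by
  refine LinearMap.ext fun δ => funext fun s => ?_
  rw [LinearMap.comp_apply, RN.flip_apply]
  cases s <;> simp [RN.res_apply]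

theorem val_dz (F : g.E) : Ev.val (g.dz F) = ExteriorAlgebra.map (RN.prB g)
    (del (g.ex (zm g.M 1)) (del (g.ex (zm g.M 0)) (Ev.val F))) := by
  rw [Geo.dz, Geo.noF, val_evMap, val_toEv (R1.del_del_even (Ev.val_mem F) _ _)]

theorem zm_pair (hA : g.A = 1) (hℓ : 1 ≤ ℓ) {z : g.P} {δ : Tor g.M × Fin 4 → ℝ} {c : ℝ}
    (hc : 0 ≤ c) (hd : Dom g.A ℓ z δ c) (a : Fin 2) : √ℓ * |g.ex δ ⬝ᵥ g.ex (zm g.M a)| ≤ c := by
  have h0 : (0 : ℝ) < ℓ := by exact_mod_cast hℓ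
  have h1 := hd (zm g.M a)
  have h2 : hsq g.A ℓ (ball z (2 * ℓ)) (zm g.M a) ≤ 1 := by
    rw [hA]
    exact hsq_zm ℓ _ a
  rw [RN.ex_dot]
  refine le_of_sq_le_sq ?_ hc
  rw [mul_pow, Real.sq_sqrt h0.le, sq_abs, mul_comm]
  exact h1.trans (mul_le_of_le_one_right (sq_nonneg c) h2)

end R3

namespace Geo

open R3

variable {g : Geo}

/-- Crude bounds, in any gauge field. -/
theorem pn_crude : ∃ C : ℝ, 1 ≤ C ∧ ∀ g : Geo, IsSign g.A → ∀ (ℓ : ℕ) (h β : ℝ), 1 ≤ ℓ → 0 < h →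
    0 < β → ∀ x : g.P, g.pn ℓ h β (star x) (g.O1 x) ≤ C * h ^ 2 * ℓ ∧
      g.pn ℓ h β (star x) (g.O2 x) ≤ C * h ^ 2 * ℓ ∧
      ∀ i (X : Finset g.P), x ∈ X → x + uv g.M i ∈ X → g.pn ℓ h β X (g.edge x i) ≤ h ^ 2 * ℓ := by
  refine ⟨18, by norm_num, fun g hA ℓ h β hℓ hh hβ x => ?_⟩
  have e : √(ℓ : ℝ) * √ℓ = ℓ := Real.mul_self_sqrt (Nat.cast_nonneg ℓ)
  have h0 : 0 ≤ h ^ 2 * ℓ := by positivity
  have h1 := pn_O1 hℓ hh hβ hA (x := x) fun y hy a => gd_e1 hy a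
  have h2 := pn_site hℓ hh hβ (x := x) fun a => gd_e1 (self_mem_star x) a
  rw [e] at h1 h2
  refine ⟨by linarith, ?_, fun i X hx hx' => ?_⟩
  · refine (RN.pn_add hℓ hh hβ _ _).trans ?_
    rw [RN.pn_smul hℓ hh hβ, abs_of_pos tc_pos]
    have h3 := mul_le_of_le_one_left (RN.pn_nonneg (ℓ := ℓ) (h := h) (β := β) (X := star x)
      (g.O1 x)) E3.tc_le
    linarith
  · have h3 := pn_edge hℓ hh hβ hA (fun a => gd_e1 hx a) fun a => gd_e1 hx' a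
    rwa [e] at h3

/-- The norms of the local terms in a flat region. -/
theorem pn_local : ∃ C : ℝ, 1 ≤ C ∧ ∀ g : Geo, IsSign g.A → ∀ (ℓ : ℕ) (h β : ℝ), 8 ≤ ℓ →
    4 * ℓ ≤ g.M → 0 < h → 0 < β → ∀ x : g.P, Flat g.A x ℓ →
      g.pn ℓ h β (star x) (g.O1 x) ≤ C * h ^ 2 / ℓ ∧
      g.pn ℓ h β (star x) (g.O2 x) ≤ C * h ^ 2 / ℓ ^ 2 ∧
      (∀ i, g.pn ℓ h β (star x) (g.edge x i) ≤ C * h ^ 2 / ℓ) ∧
      ∀ k, (g.src k).y = x → g.pn ℓ h β (star x) (g.bE k) ≤ C * β * h ^ 2 / ℓ := by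
  obtain ⟨C, hC, H⟩ := loc_est
  refine ⟨2 * C, by linarith, fun g hA ℓ h β h8 hM hh hβ x hx => ?_⟩
  have hℓ : 1 ≤ ℓ := by omega
  obtain ⟨c, c', e, e', h1, h2, -, -⟩ := H g hA ℓ h8 hM x hx
  have h3 : ∀ i, g.pn ℓ h β (star x) (g.edge x i) ≤ 2 * C * h ^ 2 / ℓ := fun i => by
    have h4 := pn_edge hℓ hh hβ hA (h1 x (self_mem_star x)) (h1 _ (add_mem_star x i))
    have h5 : 0 ≤ h ^ 2 * (C / ℓ) := by positivity
    rw [e] at h4
    calc _ ≤ 2 * (h ^ 2 * (C / ℓ)) := by linarith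
      _ = _ := by ring
  refine ⟨(pn_O1 hℓ hh hβ hA h1).trans_eq (by rw [e]; ring),
    (pn_O2 hℓ hh hβ (h1 x (self_mem_star x)) h2).trans_eq (by rw [e']; ring), h3, ?_⟩
  rintro k rfl
  refine (RN.pn_mul hℓ hh hβ _ _).trans ((mul_le_mul (R3.pn_bv hℓ hh hβ (self_mem_star _)) (h3 _)
    (RN.pn_nonneg _) hβ.le).trans_eq ?_)
  ring

/-- The extracted coefficients and terms are bounded by the norm. -/
theorem pn_extract : ∃ C : ℝ, 1 ≤ C ∧ ∀ g : Geo, IsSign g.A → ∀ (ℓ : ℕ) (h β : ℝ), 8 ≤ ℓ →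
    16 * ℓ ≤ g.M → 0 < h → 0 < β → ∀ (U : Finset g.P) (x : g.P), x ∈ U → stein U ≤ ℓ →
    Flat g.A x (5 * ℓ) → ∀ F ∈ g.sub U,
      h ^ 2 * |g.nu x F| ≤ C * ℓ * g.pn ℓ h β U F ∧
      h ^ 2 * |g.ze x F| ≤ C * ℓ ^ 2 * g.pn ℓ h β U F ∧
      (∀ k, (g.src k).y = x → β * h ^ 2 * |g.zt k F| ≤ C * ℓ * g.pn ℓ h β U F) ∧
      ∀ (ℓ' : ℕ) (h' β' : ℝ), ℓ ≤ ℓ' → 4 * ℓ' ≤ g.M → Flat g.A x ℓ' → 0 < h' → 0 < β' →
        g.pn ℓ' h' β' (star x) (g.Ext x F) ≤ C * (h' / h) ^ 2 * g.pn ℓ h β U F := by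
  obtain ⟨C, hC, H⟩ := coef_le
  obtain ⟨D, hD, H'⟩ := loc_est
  have CD : C ≤ C * D := le_mul_of_one_le_right (by linarith) hD
  refine ⟨120 * (C * D), by linarith, fun g hA ℓ h β h8 hM hh hβ U x hx hU hf F hF => ?_⟩
  obtain ⟨b1, b2, b3⟩ := H g hA ℓ h β h8 hM hh hβ U x hx hU hf F hF
  obtain ⟨p, hp⟩ : ∃ p, p = g.pn ℓ h β U F := ⟨_, rfl⟩
  rw [← hp] at b1 b2 b3 ⊢
  have p0 : 0 ≤ p := hp ▸ RN.pn_nonneg F
  have l1 : (1 : ℝ) ≤ ℓ := by exact_mod_cast (by omega : 1 ≤ ℓ)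
  have h2 : 0 < h ^ 2 := by positivity
  have q1 : 0 ≤ ℓ * p := by positivity
  have q2 : 0 ≤ (ℓ : ℝ) ^ 2 * p := by positivity
  have q3 : ℓ * p ≤ ℓ ^ 2 * p := mul_le_mul_of_nonneg_right (by nlinarith) p0
  have r1 := mul_le_mul_of_nonneg_right CD q1
  have r2 := mul_le_mul_of_nonneg_right CD q2
  have r3 := mul_nonneg (show 0 ≤ C by linarith) q1
  have r4 := mul_nonneg (show 0 ≤ C by linarith) q2
  have r5 := mul_le_mul_of_nonneg_left q3 (show 0 ≤ C by linarith)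
  have n1 : |g.nu x F| ≤ C * ℓ * p / h ^ 2 := by rw [le_div_iff₀ h2]; linarith
  have n2 : |g.nu x F| ≤ C * ℓ ^ 2 * p / h ^ 2 := by rw [le_div_iff₀ h2]; linarith
  have n3 : ∀ a b i, |g.cK x (Ev.val F) a b i| ≤ C * ℓ ^ 2 * p / h ^ 2 := fun a b i => by
    rw [le_div_iff₀ h2]; linarith [b2 a b i]
  have n4 := abs_ze_le n2 n3
  refine ⟨by linarith, ?_, ?_, fun ℓ' h' β' hl hM' hf' hh' hβ' => ?_⟩
  · rw [← mul_div_assoc, le_div_iff₀ h2] at n4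
    linarith
  · rintro k rfl
    rw [zt, abs_mul, abs_neg, abs_two]
    linarith [b3 k]
  · have hℓ' : 1 ≤ ℓ' := by omega
    have l2 : (ℓ : ℝ) ≤ ℓ' := by exact_mod_cast hl
    have l3 : (0 : ℝ) < ℓ' := by linarith
    obtain ⟨c, c', e, e', d1, d2, d3, d4⟩ := H' g hA ℓ' (by omega) hM' x hf'
    have a1 := pn_O1 hℓ' hh' hβ' hA d1
    have a2 := pn_O2 hℓ' hh' hβ' (d1 x (self_mem_star x)) d2
    have a3 := fun a b i => pn_bp hℓ' hh' hβ' (d3 a) (d4 b i)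
    rw [e] at a1
    rw [e'] at a2 a3
    obtain ⟨T, hT⟩ : ∃ T, T = C * D * (h' / h) ^ 2 * p := ⟨_, rfl⟩
    have T0 : 0 ≤ T := by rw [hT]; positivity
    have s1 : C * ℓ * p / h ^ 2 * (h' ^ 2 * (D / ℓ')) ≤ T :=
      calc _ = T * (ℓ / ℓ') := by rw [hT]; field_simp
        _ ≤ T := mul_le_of_le_one_right T0 ((div_le_one l3).2 l2)
    have s2 : C * ℓ ^ 2 * p / h ^ 2 * (h' ^ 2 * (D / ℓ' ^ 2)) ≤ T :=
      calc _ = T * (ℓ / ℓ') ^ 2 := by rw [hT]; field_simp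
        _ ≤ T := mul_le_of_le_one_right T0
          (pow_le_one₀ (by positivity) ((div_le_one l3).2 l2))
    have u1 : g.pn ℓ' h' β' (star x) (g.nu x F • g.O1 x) ≤ 2 * T := by
      rw [RN.pn_smul hℓ' hh' hβ']
      have := mul_le_mul n1 a1 (RN.pn_nonneg _) (by positivity)
      linarith
    have u2 : g.pn ℓ' h' β' (star x) (g.ze x F • g.O2 x) ≤ 54 * T := by
      rw [RN.pn_smul hℓ' hh' hβ']
      have := mul_le_mul n4 a2 (RN.pn_nonneg _) (by positivity)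
      linarith
    have u3 : ∀ a b i, g.pn ℓ' h' β' (star x) ((g.cK x (Ev.val F) a b i -
        kt a b i * (g.nu x F + tc * g.ze x F) / 4) • bp g (fld x a) (dfld g.A x b i)) ≤ 8 * T :=
      fun a b i => by
        rw [RN.pn_smul hℓ' hh' hβ']
        have := mul_le_mul (abs_co_le n2 n3 a b i) (a3 a b i) (RN.pn_nonneg _) (by positivity)
        linarith
    have u4 := (RN.pn_sum hℓ' hh' hβ' univ _).trans (sum_le_sum fun a _ =>
      (RN.pn_sum hℓ' hh' hβ' univ _).trans (sum_le_sum fun b _ =>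
        (RN.pn_sum hℓ' hh' hβ' univ _).trans (sum_le_sum fun i _ => u3 a b i)))
    simp only [sum_const, card_univ, Fintype.card_fin, nsmul_eq_mul, Nat.cast_ofNat] at u4
    rw [Ext_eq]
    refine (RN.pn_add hℓ' hh' hβ' _ _).trans ((add_le_add (RN.pn_add hℓ' hh' hβ' _ _) u4).trans ?_)
    calc _ ≤ 120 * T := by linarith
      _ = _ := by rw [hT]; ring

/-- The coefficient of the zero modes. -/
theorem pn_dz (hA : g.A = 1) {ℓ : ℕ} {h β : ℝ} (hℓ : 1 ≤ ℓ) (hh : 0 < h) (hβ : 0 < β)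
    {U : Finset g.P} {F : g.E} (hF : F ∈ g.sub U) :
    g.dz F ∈ g.sub U ∧ h ^ 2 * ℓ * g.pn ℓ h β U (g.dz F) ≤ 4 * g.pn ℓ h β U F := by
  have adm := RN.adm (g := g) hℓ hh hβ U
  have l0 := del_loc (g.ex (zm g.M 0)) (RN.sub_loc hF)
  have s0 : 0 ≤ √(ℓ : ℝ) := Real.sqrt_nonneg _
  refine ⟨RN.mem_sub.2 ⟨?_, ?_⟩, ?_⟩
  · rw [val_dz]
    exact prB_loc (del_loc _ l0)
  · rw [val_dz, RN.map_map, flip_prB]
  · have a1 := nrm_del adm adm (half g) (g := g.ex (zm g.M 0)) (a := h * √ℓ / 2) (by positivity)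
      (fun r hr p hp => by
        rcases RN.cons_cases hp with ⟨z, hz, δ, c, hs, hc, hd, rfl⟩ | ⟨k, i, hk, rfl⟩
        · have b1 := RN.In.fld hr hz hs hc hd
          have b2 := mul_le_mul_of_nonneg_left (zm_pair hA hℓ hc hd 0) hh.le
          dsimp only
          rw [half_ex, map_smul, A3.opn_smul, abs_of_pos (by norm_num)]
          linarith
        · dsimp only
          rw [half_src, RN.src_dot_ex, abs_zero, mul_zero, add_zero]
          exact RN.In.src hr hk i) (RN.sub_loc hF) (half_loc l0)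
    have a2 := nrm_del adm adm (RN.prB g) (g := g.ex (zm g.M 1)) (a := h * √ℓ) (by positivity)
      (fun r hr p hp => by
        rcases RN.cons_cases hp with ⟨z, hz, δ, c, hs, hc, hd, rfl⟩ | ⟨k, i, hk, rfl⟩
        · have b2 := mul_le_mul_of_nonneg_left (zm_pair hA hℓ hc hd 1) hh.le
          dsimp only
          rw [RN.prB_ex, RN.opn_Psi_zero]
          linarith
        · dsimp only
          rw [RN.prB_src, RN.src_dot_ex, abs_zero, mul_zero, add_zero]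
          exact RN.In.src hr hk i) (half_loc l0) (prB_loc (del_loc _ (half_loc l0)))
    rw [del_half, map_smul, RN.map_map, prB_half, nrm_smul adm, abs_of_pos (by norm_num),
      ← val_dz] at a2
    have a3 := (mul_le_mul_of_nonneg_left a2 (show 0 ≤ h * √ℓ / 2 by positivity)).trans a1
    have e : h * √ℓ / 2 * (h * √ℓ * (1 / 2 * g.pn ℓ h β U (g.dz F))) =
        h ^ 2 * (√ℓ * √ℓ) * g.pn ℓ h β U (g.dz F) / 4 := by ring
    rw [Real.mul_self_sqrt (Nat.cast_nonneg ℓ)] at e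
    have a4 : h ^ 2 * ℓ * g.pn ℓ h β U (g.dz F) / 4 ≤ g.pn ℓ h β U F := e ▸ a3
    linarith

end Geo

end Vale.Agent.P144Z
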