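import Vale.Agent.P144Z.R1.Alg

/-!
# The local terms: algebra
-/

namespace Vale.Agent.P144Z

open Finset Matrix

namespace R3

variable {g : Geo}

/-- The product of two smeared fields, as a bilinear map. -/
noncomputable def bp (g : Geo) :
    (Tor g.M × Fin 4 → ℝ) →ₗ[ℝ] (Tor g.M × Fin 4 → ℝ) →ₗ[ℝ] g.E :=
  LinearMap.mk₂ ℝ (fun a b => pp (g.ex a) (g.ex b))
    (fun a a' b => Ev.val_injective (by
      rw [map_add, val_pp, val_pp, val_pp, RN.ex_add, A1.psi_add, add_mul]))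
    (fun c a b => Ev.val_injective (by
      rw [map_smul, val_pp, val_pp, RN.ex_smul, A1.psi_smul, smul_mul_assoc]))
    (fun a b b' => Ev.val_injective (by
      rw [map_add, val_pp, val_pp, val_pp, RN.ex_add, A1.psi_add, mul_add]))
    (fun c a b => Ev.val_injective (by
      rw [map_smul, val_pp, val_pp, RN.ex_smul, A1.psi_smul, mul_smul_comm]))

theorem bp_apply (a b : Tor g.M × Fin 4 → ℝ) : bp g a b = pp (g.ex a) (g.ex b) := rfl

theorem val_bp (a b : Tor g.M × Fin 4 → ℝ) : Ev.val (bp g a b) = psi (g.ex a) * psi (g.ex b) :=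
  val_pp _ _

theorem bp_swap (a b : Tor g.M × Fin 4 → ℝ) : bp g a b = -bp g b a :=
  Ev.val_injective (by rw [map_neg, val_bp, val_bp, A1.psi_swap])

theorem bp_self (a : Tor g.M × Fin 4 → ℝ) : bp g a a = 0 :=
  Ev.val_injective (by rw [map_zero, val_bp, A1.psi_sq])

theorem ex_out {X : Finset g.P} {a : Tor g.M × Fin 4 → ℝ} (ha : ∀ s, s.1 ∉ X → a s = 0) :
    ∀ s ∉ g.gens X, g.ex a s = 0 := by
  rintro (s | s) hs
  · exact ha s hs
  · rfl

theorem bp_mem {X : Finset g.P} {a b : Tor g.M × Fin 4 → ℝ} (ha : ∀ s, s.1 ∉ X → a s = 0)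
    (hb : ∀ s, s.1 ∉ X → b s = 0) : bp g a b ∈ g.sub X := by
  rw [RN.mem_sub, val_bp]
  refine ⟨Subalgebra.mul_mem _ (psi_mem_loc (ex_out ha)) (psi_mem_loc (ex_out hb)), ?_⟩
  rw [map_mul, A1.map_psi, A1.map_psi, RN.flip_ex, RN.flip_ex, ← neg_one_smul ℝ (g.ex a),
    ← neg_one_smul ℝ (g.ex b), A1.psi_smul, A1.psi_smul, smul_mul_smul_comm]
  simp

theorem noB_bp (a b : Tor g.M × Fin 4 → ℝ) : g.noB (bp g a b) = bp g a b := by
  rw [bp_apply, Geo.noB, I2.evMap_pp, RN.prF_ex, RN.prF_ex]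

theorem noF_bp (a b : Tor g.M × Fin 4 → ℝ) : g.noF (bp g a b) = 0 := by
  rw [bp_apply, Geo.noF, I2.evMap_pp, RN.prB_ex]
  exact Ev.val_injective (by rw [val_pp, map_zero, A1.psi_zero, zero_mul])

theorem beta_bp (a b u w : Tor g.M × Fin 4 → ℝ) :
    beta (Ev.val (bp g a b)) (g.ex u) (g.ex w) = (a ⬝ᵥ u) * (b ⬝ᵥ w) - (b ⬝ᵥ u) * (a ⬝ᵥ w) := by
  rw [val_bp, beta_pp]
  simp only [RN.ex_dot]

/-- The quadratic part as a linear map. -/
noncomputable def bL (g : Geo) (u w : g.S → ℝ) : g.E →ₗ[ℝ] ℝ :=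
  (aug (S := g.S)).toLinearMap ∘ₗ del w ∘ₗ del u ∘ₗ (Ev.val (S := g.S)).toLinearMap

theorem bL_apply (u w : g.S → ℝ) (F : g.E) : bL g u w F = beta (Ev.val F) u w := rfl

theorem bL_bp (a b u w : Tor g.M × Fin 4 → ℝ) :
    bL g (g.ex u) (g.ex w) (bp g a b) = (a ⬝ᵥ u) * (b ⬝ᵥ w) - (b ⬝ᵥ u) * (a ⬝ᵥ w) :=
  beta_bp a b u w

/-- The smearing function of one generator. -/
noncomputable abbrev e1 {M : ℕ} (x : Tor M) (a : Fin 4) : Tor M × Fin 4 → ℝ := Pi.single (x, a) 1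

theorem e1_out {M : ℕ} {X : Finset (Tor M)} {x : Tor M} (hx : x ∈ X) (a : Fin 4) :
    ∀ s, s.1 ∉ X → e1 x a s = 0 := fun s hs =>
  Pi.single_eq_of_ne (fun h => hs (by rw [h]; exact hx)) _

theorem edge_eq (x : g.P) (i : Fin 2) : g.edge x i = g.A (x, i) •
    bp g (e1 x (if i = 0 then 0 else 1)) (e1 (x + uv g.M i) (if i = 0 then 2 else 3)) := by
  rw [bp_apply, RN.ex_single, RN.ex_single]
  rfl

theorem site_eq (x : g.P) : g.site x =
    ∑ a : Fin 4, ∑ b : Fin 4, if a < b then bp g (e1 x a) (e1 x b) else 0 := by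
  simp only [bp_apply, RN.ex_single]
  rfl

theorem Ext_eq (x : g.P) (F : g.E) : g.Ext x F = g.nu x F • g.O1 x + g.ze x F • g.O2 x +
    ∑ a, ∑ b, ∑ i, (g.cK x (Ev.val F) a b i - Geo.kt a b i * (g.nu x F + tc * g.ze x F) / 4) •
      bp g (fld x a) (dfld g.A x b i) := rfl

theorem self_mem_star {M : ℕ} (x : Tor M) : x ∈ star x := by simp [star]

theorem add_mem_star {M : ℕ} (x : Tor M) (i : Fin 2) : x + uv M i ∈ star x := by
  fin_cases i <;> simp [star]

theorem sub_mem_star {M : ℕ} (x : Tor M) (i : Fin 2) : x - uv M i ∈ star x := by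
  fin_cases i <;> simp [star]

theorem fld_out {M : ℕ} {X : Finset (Tor M)} {x : Tor M} (hx : x ∈ X) (a : Fin 2) :
    ∀ s, s.1 ∉ X → fld x a s = 0 := fun s hs => if_neg fun h => hs (by rw [h]; exact hx)

theorem dfld_out {M : ℕ} (A : Gauge M) (x : Tor M) (b i : Fin 2) :
    ∀ s, s.1 ∉ star x → dfld A x b i s = 0 := fun s hs => by
  simp only [dfld, Pi.smul_apply, Pi.sub_apply, fld_out (add_mem_star x i) b s hs,
    fld_out (sub_mem_star x i) b s hs, smul_zero, sub_zero]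

theorem site_mem {X : Finset g.P} {x : g.P} (hx : x ∈ X) : g.site x ∈ g.sub X := by
  rw [site_eq]
  refine Subalgebra.sum_mem _ fun a _ => Subalgebra.sum_mem _ fun b _ => ?_
  split_ifs
  · exact bp_mem (e1_out hx a) (e1_out hx b)
  · exact Subalgebra.zero_mem _

/-- A linear map that fixes all products of fields fixes the local terms. -/
theorem fix_edge (Φ : g.E →ₗ[ℝ] g.E) (c : ℝ) (h : ∀ a b, Φ (bp g a b) = c • bp g a b) (x : g.P)
    (i : Fin 2) : Φ (g.edge x i) = c • g.edge x i := by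
  rw [edge_eq, map_smul, h, smul_comm]

theorem fix_O1 (Φ : g.E →ₗ[ℝ] g.E) (c : ℝ) (h : ∀ a b, Φ (bp g a b) = c • bp g a b) (x : g.P) :
    Φ (g.O1 x) = c • g.O1 x := by
  rw [Geo.O1, map_smul, map_sum, smul_comm, smul_sum (r := c)]
  simp only [map_add, fix_edge Φ c h, smul_add]

theorem fix_O2 (Φ : g.E →ₗ[ℝ] g.E) (c : ℝ) (h : ∀ a b, Φ (bp g a b) = c • bp g a b) (x : g.P) :
    Φ (g.O2 x) = c • g.O2 x := by
  rw [Geo.O2, map_add, map_smul, fix_O1 Φ c h, smul_add, smul_comm tc c, site_eq]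
  simp only [map_sum, smul_sum, apply_ite Φ, map_zero, h, smul_ite, smul_zero]

theorem fix_Ext (Φ : g.E →ₗ[ℝ] g.E) (c : ℝ) (h : ∀ a b, Φ (bp g a b) = c • bp g a b) (x : g.P)
    (F : g.E) : Φ (g.Ext x F) = c • g.Ext x F := by
  rw [Ext_eq]
  simp only [map_add, map_sum, map_smul, fix_O1 Φ c h, fix_O2 Φ c h, h, smul_add, smul_sum,
    smul_comm c]

theorem del_prF (u : Tor g.M × Fin 4 → ℝ) (F : Gr g.S) :
    del (g.ex u) (ExteriorAlgebra.map (RN.prF g) F) =
      ExteriorAlgebra.map (RN.prF g) (del (g.ex u) F) := by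
  refine del_map _ _ _ (A1.mem_loc_univ F) ?_
  rintro (s | s) -
  · rw [← RN.ex_single, RN.prF_ex, RN.ex_dot, single_one_dotProduct]
    rfl
  · rw [RN.prF_src, zero_dotProduct]
    rfl

theorem beta_noB (u w : Tor g.M × Fin 4 → ℝ) (F : g.E) :
    beta (Ev.val (g.noB F)) (g.ex u) (g.ex w) = beta (Ev.val F) (g.ex u) (g.ex w) := by
  rw [Geo.noB, val_evMap, beta, del_prF, del_prF, aug_map, beta]

theorem db_noB (k : g.K) (F : g.E) : g.db k (Ev.val (g.noB F)) = 0 := by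
  have h : del (R1.sv g k 0) (ExteriorAlgebra.map (RN.prF g) (Ev.val F)) =
      ExteriorAlgebra.map (RN.prF g) (del 0 (Ev.val F)) := by
    refine del_map _ _ _ (A1.mem_loc_univ _) ?_
    rintro (s | s) -
    · rw [← RN.ex_single, RN.prF_ex, RN.ex_dot_src]
      rfl
    · rw [RN.prF_src, zero_dotProduct]
      rfl
  rw [R1.db_apply, Geo.noB, val_evMap, h, A1.del_zero_left, map_zero, map_zero]

theorem cM_eq (x : g.P) (F : g.E) :
    g.cM x (Ev.val F) = bL g (g.ex (tf0 g.A x 0)) (g.ex (tf0 g.A x 1)) F := rfl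

theorem cK_eq (x : g.P) (F : g.E) (a b i : Fin 2) :
    g.cK x (Ev.val F) a b i = bL g (g.ex (tf0 g.A x a)) (g.ex (tf1 g.A x b i)) F := rfl

theorem nu_add (x : g.P) (F G : g.E) : g.nu x (F + G) = g.nu x F + g.nu x G := by
  simp only [Geo.nu, cM_eq, map_add (bL g _ _)]
  ring

theorem nu_smul (x : g.P) (c : ℝ) (F : g.E) : g.nu x (c • F) = c * g.nu x F := by
  simp only [Geo.nu, cM_eq, map_smul (bL g _ _), smul_eq_mul]
  ring

theorem cK_add (x : g.P) (F G : g.E) (a b i : Fin 2) : g.cK x (Ev.val (F + G)) a b i =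
    g.cK x (Ev.val F) a b i + g.cK x (Ev.val G) a b i := by
  simp only [cK_eq, map_add (bL g _ _)]

theorem cK_smul (x : g.P) (c : ℝ) (F : g.E) (a b i : Fin 2) : g.cK x (Ev.val (c • F)) a b i =
    c * g.cK x (Ev.val F) a b i := by
  simp only [cK_eq, map_smul (bL g _ _), smul_eq_mul]

theorem ze_add (x : g.P) (F G : g.E) : g.ze x (F + G) = g.ze x F + g.ze x G := by
  simp only [Geo.ze, cK_add, nu_add, mul_add, sum_add_distrib]
  ring

theorem ze_smul (x : g.P) (c : ℝ) (F : g.E) : g.ze x (c • F) = c * g.ze x F := by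
  simp only [Geo.ze, cK_smul, nu_smul, Fin.sum_univ_two]
  ring

end R3

namespace Geo

open R3

variable {g : Geo}

theorem edge_mem (x : g.P) (i : Fin 2) {X : Finset g.P} (h : x ∈ X) (h' : x + uv g.M i ∈ X) :
    g.edge x i ∈ g.sub X := by
  rw [edge_eq]
  exact Subalgebra.smul_mem _ (bp_mem (e1_out h _) (e1_out h' _)) _

theorem O1_mem (x : g.P) : g.O1 x ∈ g.sub (star x) := by
  refine Subalgebra.smul_mem _ (Subalgebra.sum_mem _ fun i _ => Subalgebra.add_mem _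
    (edge_mem x i (self_mem_star x) (add_mem_star x i))
    (edge_mem _ i (sub_mem_star x i) ?_)) _
  rw [sub_add_cancel]
  exact self_mem_star x

theorem O2_mem (x : g.P) : g.O2 x ∈ g.sub (star x) :=
  Subalgebra.add_mem _ (site_mem (self_mem_star x)) (Subalgebra.smul_mem _ (O1_mem x) _)

theorem Ext_mem (x : g.P) (F : g.E) : g.Ext x F ∈ g.sub (star x) := by
  rw [Ext_eq]
  exact Subalgebra.add_mem _ (Subalgebra.add_mem _ (Subalgebra.smul_mem _ (O1_mem x) _)
    (Subalgebra.smul_mem _ (O2_mem x) _)) (Subalgebra.sum_mem _ fun a _ => Subalgebra.sum_mem _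
      fun b _ => Subalgebra.sum_mem _ fun i _ => Subalgebra.smul_mem _
        (bp_mem (fld_out (self_mem_star x) a) (dfld_out g.A x b i)) _)

theorem bE_mem (k : g.K) : g.bE k ∈ g.sub (star (g.src k).y) :=
  Subalgebra.mul_mem _ (bv_mem (self_mem_star _))
    (edge_mem _ _ (self_mem_star _) (add_mem_star _ _))

theorem sum_O1 : ∑ x, g.O1 x = ∑ e : Tor g.M × Fin 2, g.edge e.1 e.2 := by
  have h : ∀ i, ∑ x : g.P, g.edge (x - uv g.M i) i = ∑ x : g.P, g.edge x i := fun i =>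
    Fintype.sum_equiv (Equiv.subRight (uv g.M i)) _ _ fun _ => rfl
  simp only [O1]
  rw [← smul_sum, sum_comm, Fintype.sum_prod_type_right]
  simp only [sum_add_distrib, h]
  rw [← two_smul ℝ, smul_smul]
  norm_num

theorem Ext_add (x : g.P) (F G : g.E) : g.Ext x (F + G) = g.Ext x F + g.Ext x G := by
  simp only [Ext_eq, nu_add, ze_add, cK_add, Fin.sum_univ_two]
  module

theorem Ext_smul (x : g.P) (c : ℝ) (F : g.E) : g.Ext x (c • F) = c • g.Ext x F := by
  simp only [Ext_eq, nu_smul, ze_smul, cK_smul, Fin.sum_univ_two]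
  module

theorem Ext_noB (x : g.P) (F : g.E) : g.Ext x (g.noB F) = g.Ext x F := by
  simp only [Ext, ze, nu, cM, cK, beta_noB]

theorem noB_Ext (x : g.P) (F : g.E) : g.noB (g.Ext x F) = g.Ext x F := by
  rw [fix_Ext g.noB 1 fun a b => by rw [noB_bp, one_smul], one_smul]

theorem noF_Ext (x : g.P) (F : g.E) : g.noF (g.Ext x F) = 0 := by
  rw [fix_Ext g.noF 0 fun a b => by rw [noF_bp, zero_smul], zero_smul]

theorem zt_add (k : g.K) (F G : g.E) : g.zt k (F + G) = g.zt k F + g.zt k G := by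
  simp only [zt, cM, beta, map_add]
  ring

theorem zt_smul (k : g.K) (c : ℝ) (F : g.E) : g.zt k (c • F) = c * g.zt k F := by
  simp only [zt, cM, beta, map_smul, smul_eq_mul]
  ring

theorem zt_noB (k : g.K) (F : g.E) : g.zt k (g.noB F) = 0 := by
  simp only [zt, cM, beta, db_noB, map_zero, mul_zero]

theorem noB_bE (k : g.K) : g.noB (g.bE k) = 0 := by
  rw [bE, noB_mul, noB_bv, zero_mul]

theorem noF_bE (k : g.K) : g.noF (g.bE k) = 0 := by
  rw [bE, noF_mul, fix_edge g.noF 0 fun a b => by rw [noF_bp, zero_smul], zero_smul, mul_zero]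

end Geo

end Vale.Agent.P144Z
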